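import Vale.Agent.P355.Cert.BlockG
import Vale.Agent.P355.Cert.Block2D
import Vale.Agent.P355.Data.B0_0Data
import Vale.Agent.P355.Data.Raw
import Vale.Agent.P355.Data.Canon

/-! P355 certificate data (generated by notes/P355/h55/genG.py). -/

namespace Vale.Agent.P355.Data
open Vale.Agent.P355.Cert Vale.Agent.P355.Cert.Packed Vale.Agent.P355.Cert.Block
set_option linter.all false
set_option maxRecDepth 4000
theorem pairs0_0_0 : chunkPairs par0_0 lk raw fs0_0 gL0_0 0 7 = true := by decide +kernel
end Vale.Agent.P355.Data
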