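import Vale.Agent.P355.Cert.BlockG
import Vale.Agent.P355.Cert.Block2D
import Vale.Agent.P355.Data.Raws0
import Vale.Agent.P355.Data.Raws1
import Vale.Agent.P355.Data.Raws2
import Vale.Agent.P355.Data.Raws3
import Vale.Agent.P355.Data.Raws4
import Vale.Agent.P355.Data.Raws5
import Vale.Agent.P355.Data.Raws6
import Vale.Agent.P355.Data.Raws7
import Vale.Agent.P355.Data.Raws8
import Vale.Agent.P355.Data.Raws9
import Vale.Agent.P355.Data.Raws10
import Vale.Agent.P355.Data.Raws11

/-! P355 certificate data (generated by notes/P355/h55/genG.py). -/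

namespace Vale.Agent.P355.Data
open Vale.Agent.P355.Cert Vale.Agent.P355.Cert.Packed Vale.Agent.P355.Cert.Block
set_option linter.all false
set_option maxRecDepth 4000
def qsA0 : List (ℕ × ℕ × Bool × Bool) := qs0
theorem rawA0 : rawsOK raw canon qsA0 0 = true := rawsOK0
theorem lenA0 : qsA0.length = 500 := by decide +kernel
def qsA1 : List (ℕ × ℕ × Bool × Bool) := qsA0 ++ qs500
theorem rawA1 : rawsOK raw canon qsA1 0 = true := rawsOK_append rawA0 (by rw [lenA0]; exact rawsOK500)
theorem lenA1 : qsA1.length = 1000 := by rw [qsA1, List.length_append, lenA0]; decide +kernel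
def qsA2 : List (ℕ × ℕ × Bool × Bool) := qsA1 ++ qs1000
theorem rawA2 : rawsOK raw canon qsA2 0 = true := rawsOK_append rawA1 (by rw [lenA1]; exact rawsOK1000)
theorem lenA2 : qsA2.length = 1500 := by rw [qsA2, List.length_append, lenA1]; decide +kernel
def qsA3 : List (ℕ × ℕ × Bool × Bool) := qsA2 ++ qs1500
theorem rawA3 : rawsOK raw canon qsA3 0 = true := rawsOK_append rawA2 (by rw [lenA2]; exact rawsOK1500)
theorem lenA3 : qsA3.length = 2000 := by rw [qsA3, List.length_append, lenA2]; decide +kernel
def qsA4 : List (ℕ × ℕ × Bool × Bool) := qsA3 ++ qs2000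
theorem rawA4 : rawsOK raw canon qsA4 0 = true := rawsOK_append rawA3 (by rw [lenA3]; exact rawsOK2000)
theorem lenA4 : qsA4.length = 2500 := by rw [qsA4, List.length_append, lenA3]; decide +kernel
def qsA5 : List (ℕ × ℕ × Bool × Bool) := qsA4 ++ qs2500
theorem rawA5 : rawsOK raw canon qsA5 0 = true := rawsOK_append rawA4 (by rw [lenA4]; exact rawsOK2500)
theorem lenA5 : qsA5.length = 3000 := by rw [qsA5, List.length_append, lenA4]; decide +kernel
def qsA6 : List (ℕ × ℕ × Bool × Bool) := qsA5 ++ qs3000
theorem rawA6 : rawsOK raw canon qsA6 0 = true := rawsOK_append rawA5 (by rw [lenA5]; exact rawsOK3000)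
theorem lenA6 : qsA6.length = 3500 := by rw [qsA6, List.length_append, lenA5]; decide +kernel
def qsA7 : List (ℕ × ℕ × Bool × Bool) := qsA6 ++ qs3500
theorem rawA7 : rawsOK raw canon qsA7 0 = true := rawsOK_append rawA6 (by rw [lenA6]; exact rawsOK3500)
theorem lenA7 : qsA7.length = 4000 := by rw [qsA7, List.length_append, lenA6]; decide +kernel
def qsA8 : List (ℕ × ℕ × Bool × Bool) := qsA7 ++ qs4000
theorem rawA8 : rawsOK raw canon qsA8 0 = true := rawsOK_append rawA7 (by rw [lenA7]; exact rawsOK4000)
theorem lenA8 : qsA8.length = 4500 := by rw [qsA8, List.length_append, lenA7]; decide +kernel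
def qsA9 : List (ℕ × ℕ × Bool × Bool) := qsA8 ++ qs4500
theorem rawA9 : rawsOK raw canon qsA9 0 = true := rawsOK_append rawA8 (by rw [lenA8]; exact rawsOK4500)
theorem lenA9 : qsA9.length = 5000 := by rw [qsA9, List.length_append, lenA8]; decide +kernel
def qsA10 : List (ℕ × ℕ × Bool × Bool) := qsA9 ++ qs5000
theorem rawA10 : rawsOK raw canon qsA10 0 = true := rawsOK_append rawA9 (by rw [lenA9]; exact rawsOK5000)
theorem lenA10 : qsA10.length = 5500 := by rw [qsA10, List.length_append, lenA9]; decide +kernel
def qsA11 : List (ℕ × ℕ × Bool × Bool) := qsA10 ++ qs5500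
theorem rawA11 : rawsOK raw canon qsA11 0 = true := rawsOK_append rawA10 (by rw [lenA10]; exact rawsOK5500)
theorem lenA11 : qsA11.length = 6000 := by rw [qsA11, List.length_append, lenA10]; decide +kernel
def qsA12 : List (ℕ × ℕ × Bool × Bool) := qsA11 ++ qs6000
theorem rawA12 : rawsOK raw canon qsA12 0 = true := rawsOK_append rawA11 (by rw [lenA11]; exact rawsOK6000)
theorem lenA12 : qsA12.length = 6500 := by rw [qsA12, List.length_append, lenA11]; decide +kernel
def qsA13 : List (ℕ × ℕ × Bool × Bool) := qsA12 ++ qs6500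
theorem rawA13 : rawsOK raw canon qsA13 0 = true := rawsOK_append rawA12 (by rw [lenA12]; exact rawsOK6500)
theorem lenA13 : qsA13.length = 7000 := by rw [qsA13, List.length_append, lenA12]; decide +kernel
def qsA14 : List (ℕ × ℕ × Bool × Bool) := qsA13 ++ qs7000
theorem rawA14 : rawsOK raw canon qsA14 0 = true := rawsOK_append rawA13 (by rw [lenA13]; exact rawsOK7000)
theorem lenA14 : qsA14.length = 7500 := by rw [qsA14, List.length_append, lenA13]; decide +kernel
def qsA15 : List (ℕ × ℕ × Bool × Bool) := qsA14 ++ qs7500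
theorem rawA15 : rawsOK raw canon qsA15 0 = true := rawsOK_append rawA14 (by rw [lenA14]; exact rawsOK7500)
theorem lenA15 : qsA15.length = 8000 := by rw [qsA15, List.length_append, lenA14]; decide +kernel
def qsA16 : List (ℕ × ℕ × Bool × Bool) := qsA15 ++ qs8000
theorem rawA16 : rawsOK raw canon qsA16 0 = true := rawsOK_append rawA15 (by rw [lenA15]; exact rawsOK8000)
theorem lenA16 : qsA16.length = 8500 := by rw [qsA16, List.length_append, lenA15]; decide +kernel
def qsA17 : List (ℕ × ℕ × Bool × Bool) := qsA16 ++ qs8500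
theorem rawA17 : rawsOK raw canon qsA17 0 = true := rawsOK_append rawA16 (by rw [lenA16]; exact rawsOK8500)
theorem lenA17 : qsA17.length = 9000 := by rw [qsA17, List.length_append, lenA16]; decide +kernel
def qsA18 : List (ℕ × ℕ × Bool × Bool) := qsA17 ++ qs9000
theorem rawA18 : rawsOK raw canon qsA18 0 = true := rawsOK_append rawA17 (by rw [lenA17]; exact rawsOK9000)
theorem lenA18 : qsA18.length = 9500 := by rw [qsA18, List.length_append, lenA17]; decide +kernel
def qsA19 : List (ℕ × ℕ × Bool × Bool) := qsA18 ++ qs9500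
theorem rawA19 : rawsOK raw canon qsA19 0 = true := rawsOK_append rawA18 (by rw [lenA18]; exact rawsOK9500)
theorem lenA19 : qsA19.length = 10000 := by rw [qsA19, List.length_append, lenA18]; decide +kernel
def qsA20 : List (ℕ × ℕ × Bool × Bool) := qsA19 ++ qs10000
theorem rawA20 : rawsOK raw canon qsA20 0 = true := rawsOK_append rawA19 (by rw [lenA19]; exact rawsOK10000)
theorem lenA20 : qsA20.length = 10500 := by rw [qsA20, List.length_append, lenA19]; decide +kernel
def qsA21 : List (ℕ × ℕ × Bool × Bool) := qsA20 ++ qs10500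
theorem rawA21 : rawsOK raw canon qsA21 0 = true := rawsOK_append rawA20 (by rw [lenA20]; exact rawsOK10500)
theorem lenA21 : qsA21.length = 11000 := by rw [qsA21, List.length_append, lenA20]; decide +kernel
def qsA22 : List (ℕ × ℕ × Bool × Bool) := qsA21 ++ qs11000
theorem rawA22 : rawsOK raw canon qsA22 0 = true := rawsOK_append rawA21 (by rw [lenA21]; exact rawsOK11000)
theorem lenA22 : qsA22.length = 11500 := by rw [qsA22, List.length_append, lenA21]; decide +kernel
def qsA23 : List (ℕ × ℕ × Bool × Bool) := qsA22 ++ qs11500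
theorem rawA23 : rawsOK raw canon qsA23 0 = true := rawsOK_append rawA22 (by rw [lenA22]; exact rawsOK11500)
theorem lenA23 : qsA23.length = 12000 := by rw [qsA23, List.length_append, lenA22]; decide +kernel
def qsA24 : List (ℕ × ℕ × Bool × Bool) := qsA23 ++ qs12000
theorem rawA24 : rawsOK raw canon qsA24 0 = true := rawsOK_append rawA23 (by rw [lenA23]; exact rawsOK12000)
theorem lenA24 : qsA24.length = 12500 := by rw [qsA24, List.length_append, lenA23]; decide +kernel
def qsA25 : List (ℕ × ℕ × Bool × Bool) := qsA24 ++ qs12500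
theorem rawA25 : rawsOK raw canon qsA25 0 = true := rawsOK_append rawA24 (by rw [lenA24]; exact rawsOK12500)
theorem lenA25 : qsA25.length = 13000 := by rw [qsA25, List.length_append, lenA24]; decide +kernel
def qsA26 : List (ℕ × ℕ × Bool × Bool) := qsA25 ++ qs13000
theorem rawA26 : rawsOK raw canon qsA26 0 = true := rawsOK_append rawA25 (by rw [lenA25]; exact rawsOK13000)
theorem lenA26 : qsA26.length = 13500 := by rw [qsA26, List.length_append, lenA25]; decide +kernel
def qsA27 : List (ℕ × ℕ × Bool × Bool) := qsA26 ++ qs13500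
theorem rawA27 : rawsOK raw canon qsA27 0 = true := rawsOK_append rawA26 (by rw [lenA26]; exact rawsOK13500)
theorem lenA27 : qsA27.length = 14000 := by rw [qsA27, List.length_append, lenA26]; decide +kernel
def qsA28 : List (ℕ × ℕ × Bool × Bool) := qsA27 ++ qs14000
theorem rawA28 : rawsOK raw canon qsA28 0 = true := rawsOK_append rawA27 (by rw [lenA27]; exact rawsOK14000)
theorem lenA28 : qsA28.length = 14500 := by rw [qsA28, List.length_append, lenA27]; decide +kernel
def qsA29 : List (ℕ × ℕ × Bool × Bool) := qsA28 ++ qs14500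
theorem rawA29 : rawsOK raw canon qsA29 0 = true := rawsOK_append rawA28 (by rw [lenA28]; exact rawsOK14500)
theorem lenA29 : qsA29.length = 15000 := by rw [qsA29, List.length_append, lenA28]; decide +kernel
def qsA30 : List (ℕ × ℕ × Bool × Bool) := qsA29 ++ qs15000
theorem rawA30 : rawsOK raw canon qsA30 0 = true := rawsOK_append rawA29 (by rw [lenA29]; exact rawsOK15000)
theorem lenA30 : qsA30.length = 15500 := by rw [qsA30, List.length_append, lenA29]; decide +kernel
def qsA31 : List (ℕ × ℕ × Bool × Bool) := qsA30 ++ qs15500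
theorem rawA31 : rawsOK raw canon qsA31 0 = true := rawsOK_append rawA30 (by rw [lenA30]; exact rawsOK15500)
theorem lenA31 : qsA31.length = 16000 := by rw [qsA31, List.length_append, lenA30]; decide +kernel
def qsA32 : List (ℕ × ℕ × Bool × Bool) := qsA31 ++ qs16000
theorem rawA32 : rawsOK raw canon qsA32 0 = true := rawsOK_append rawA31 (by rw [lenA31]; exact rawsOK16000)
theorem lenA32 : qsA32.length = 16500 := by rw [qsA32, List.length_append, lenA31]; decide +kernel
def qsA33 : List (ℕ × ℕ × Bool × Bool) := qsA32 ++ qs16500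
theorem rawA33 : rawsOK raw canon qsA33 0 = true := rawsOK_append rawA32 (by rw [lenA32]; exact rawsOK16500)
theorem lenA33 : qsA33.length = 17000 := by rw [qsA33, List.length_append, lenA32]; decide +kernel
def qsA34 : List (ℕ × ℕ × Bool × Bool) := qsA33 ++ qs17000
theorem rawA34 : rawsOK raw canon qsA34 0 = true := rawsOK_append rawA33 (by rw [lenA33]; exact rawsOK17000)
theorem lenA34 : qsA34.length = 17500 := by rw [qsA34, List.length_append, lenA33]; decide +kernel
def qsA35 : List (ℕ × ℕ × Bool × Bool) := qsA34 ++ qs17500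
theorem rawA35 : rawsOK raw canon qsA35 0 = true := rawsOK_append rawA34 (by rw [lenA34]; exact rawsOK17500)
theorem lenA35 : qsA35.length = 18000 := by rw [qsA35, List.length_append, lenA34]; decide +kernel
def qsA36 : List (ℕ × ℕ × Bool × Bool) := qsA35 ++ qs18000
theorem rawA36 : rawsOK raw canon qsA36 0 = true := rawsOK_append rawA35 (by rw [lenA35]; exact rawsOK18000)
theorem lenA36 : qsA36.length = 18500 := by rw [qsA36, List.length_append, lenA35]; decide +kernel
def qsA37 : List (ℕ × ℕ × Bool × Bool) := qsA36 ++ qs18500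
theorem rawA37 : rawsOK raw canon qsA37 0 = true := rawsOK_append rawA36 (by rw [lenA36]; exact rawsOK18500)
theorem lenA37 : qsA37.length = 19000 := by rw [qsA37, List.length_append, lenA36]; decide +kernel
def qsA38 : List (ℕ × ℕ × Bool × Bool) := qsA37 ++ qs19000
theorem rawA38 : rawsOK raw canon qsA38 0 = true := rawsOK_append rawA37 (by rw [lenA37]; exact rawsOK19000)
theorem lenA38 : qsA38.length = 19500 := by rw [qsA38, List.length_append, lenA37]; decide +kernel
def qsA39 : List (ℕ × ℕ × Bool × Bool) := qsA38 ++ qs19500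
theorem rawA39 : rawsOK raw canon qsA39 0 = true := rawsOK_append rawA38 (by rw [lenA38]; exact rawsOK19500)
theorem lenA39 : qsA39.length = 20000 := by rw [qsA39, List.length_append, lenA38]; decide +kernel
def qsA40 : List (ℕ × ℕ × Bool × Bool) := qsA39 ++ qs20000
theorem rawA40 : rawsOK raw canon qsA40 0 = true := rawsOK_append rawA39 (by rw [lenA39]; exact rawsOK20000)
theorem lenA40 : qsA40.length = 20500 := by rw [qsA40, List.length_append, lenA39]; decide +kernel
def qsA41 : List (ℕ × ℕ × Bool × Bool) := qsA40 ++ qs20500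
theorem rawA41 : rawsOK raw canon qsA41 0 = true := rawsOK_append rawA40 (by rw [lenA40]; exact rawsOK20500)
theorem lenA41 : qsA41.length = 21000 := by rw [qsA41, List.length_append, lenA40]; decide +kernel
def qsA42 : List (ℕ × ℕ × Bool × Bool) := qsA41 ++ qs21000
theorem rawA42 : rawsOK raw canon qsA42 0 = true := rawsOK_append rawA41 (by rw [lenA41]; exact rawsOK21000)
theorem lenA42 : qsA42.length = 21500 := by rw [qsA42, List.length_append, lenA41]; decide +kernel
def qsA43 : List (ℕ × ℕ × Bool × Bool) := qsA42 ++ qs21500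
theorem rawA43 : rawsOK raw canon qsA43 0 = true := rawsOK_append rawA42 (by rw [lenA42]; exact rawsOK21500)
theorem lenA43 : qsA43.length = 22000 := by rw [qsA43, List.length_append, lenA42]; decide +kernel
def qsA44 : List (ℕ × ℕ × Bool × Bool) := qsA43 ++ qs22000
theorem rawA44 : rawsOK raw canon qsA44 0 = true := rawsOK_append rawA43 (by rw [lenA43]; exact rawsOK22000)
theorem lenA44 : qsA44.length = 22500 := by rw [qsA44, List.length_append, lenA43]; decide +kernel
def qsA45 : List (ℕ × ℕ × Bool × Bool) := qsA44 ++ qs22500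
theorem rawA45 : rawsOK raw canon qsA45 0 = true := rawsOK_append rawA44 (by rw [lenA44]; exact rawsOK22500)
theorem lenA45 : qsA45.length = 23000 := by rw [qsA45, List.length_append, lenA44]; decide +kernel
def qsA46 : List (ℕ × ℕ × Bool × Bool) := qsA45 ++ qs23000
theorem rawA46 : rawsOK raw canon qsA46 0 = true := rawsOK_append rawA45 (by rw [lenA45]; exact rawsOK23000)
theorem lenA46 : qsA46.length = 23500 := by rw [qsA46, List.length_append, lenA45]; decide +kernel
def qsA47 : List (ℕ × ℕ × Bool × Bool) := qsA46 ++ qs23500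
theorem rawA47 : rawsOK raw canon qsA47 0 = true := rawsOK_append rawA46 (by rw [lenA46]; exact rawsOK23500)
theorem lenA47 : qsA47.length = 24000 := by rw [qsA47, List.length_append, lenA46]; decide +kernel
def qsA48 : List (ℕ × ℕ × Bool × Bool) := qsA47 ++ qs24000
theorem rawA48 : rawsOK raw canon qsA48 0 = true := rawsOK_append rawA47 (by rw [lenA47]; exact rawsOK24000)
theorem lenA48 : qsA48.length = 24500 := by rw [qsA48, List.length_append, lenA47]; decide +kernel
def qsA49 : List (ℕ × ℕ × Bool × Bool) := qsA48 ++ qs24500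
theorem rawA49 : rawsOK raw canon qsA49 0 = true := rawsOK_append rawA48 (by rw [lenA48]; exact rawsOK24500)
theorem lenA49 : qsA49.length = 25000 := by rw [qsA49, List.length_append, lenA48]; decide +kernel
def qsA50 : List (ℕ × ℕ × Bool × Bool) := qsA49 ++ qs25000
theorem rawA50 : rawsOK raw canon qsA50 0 = true := rawsOK_append rawA49 (by rw [lenA49]; exact rawsOK25000)
theorem lenA50 : qsA50.length = 25500 := by rw [qsA50, List.length_append, lenA49]; decide +kernel
def qsA51 : List (ℕ × ℕ × Bool × Bool) := qsA50 ++ qs25500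
theorem rawA51 : rawsOK raw canon qsA51 0 = true := rawsOK_append rawA50 (by rw [lenA50]; exact rawsOK25500)
theorem lenA51 : qsA51.length = 26000 := by rw [qsA51, List.length_append, lenA50]; decide +kernel
def qsA52 : List (ℕ × ℕ × Bool × Bool) := qsA51 ++ qs26000
theorem rawA52 : rawsOK raw canon qsA52 0 = true := rawsOK_append rawA51 (by rw [lenA51]; exact rawsOK26000)
theorem lenA52 : qsA52.length = 26500 := by rw [qsA52, List.length_append, lenA51]; decide +kernel
def qsA53 : List (ℕ × ℕ × Bool × Bool) := qsA52 ++ qs26500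
theorem rawA53 : rawsOK raw canon qsA53 0 = true := rawsOK_append rawA52 (by rw [lenA52]; exact rawsOK26500)
theorem lenA53 : qsA53.length = 27000 := by rw [qsA53, List.length_append, lenA52]; decide +kernel
def qsA54 : List (ℕ × ℕ × Bool × Bool) := qsA53 ++ qs27000
theorem rawA54 : rawsOK raw canon qsA54 0 = true := rawsOK_append rawA53 (by rw [lenA53]; exact rawsOK27000)
theorem lenA54 : qsA54.length = 27500 := by rw [qsA54, List.length_append, lenA53]; decide +kernel
def qsA55 : List (ℕ × ℕ × Bool × Bool) := qsA54 ++ qs27500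
theorem rawA55 : rawsOK raw canon qsA55 0 = true := rawsOK_append rawA54 (by rw [lenA54]; exact rawsOK27500)
theorem lenA55 : qsA55.length = 28000 := by rw [qsA55, List.length_append, lenA54]; decide +kernel
def qsA56 : List (ℕ × ℕ × Bool × Bool) := qsA55 ++ qs28000
theorem rawA56 : rawsOK raw canon qsA56 0 = true := rawsOK_append rawA55 (by rw [lenA55]; exact rawsOK28000)
theorem lenA56 : qsA56.length = 28500 := by rw [qsA56, List.length_append, lenA55]; decide +kernel
def qsA57 : List (ℕ × ℕ × Bool × Bool) := qsA56 ++ qs28500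
theorem rawA57 : rawsOK raw canon qsA57 0 = true := rawsOK_append rawA56 (by rw [lenA56]; exact rawsOK28500)
theorem lenA57 : qsA57.length = 29000 := by rw [qsA57, List.length_append, lenA56]; decide +kernel
def qsA58 : List (ℕ × ℕ × Bool × Bool) := qsA57 ++ qs29000
theorem rawA58 : rawsOK raw canon qsA58 0 = true := rawsOK_append rawA57 (by rw [lenA57]; exact rawsOK29000)
theorem lenA58 : qsA58.length = 29500 := by rw [qsA58, List.length_append, lenA57]; decide +kernel
def qsA59 : List (ℕ × ℕ × Bool × Bool) := qsA58 ++ qs29500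
theorem rawA59 : rawsOK raw canon qsA59 0 = true := rawsOK_append rawA58 (by rw [lenA58]; exact rawsOK29500)
theorem lenA59 : qsA59.length = 30000 := by rw [qsA59, List.length_append, lenA58]; decide +kernel
def qsA60 : List (ℕ × ℕ × Bool × Bool) := qsA59 ++ qs30000
theorem rawA60 : rawsOK raw canon qsA60 0 = true := rawsOK_append rawA59 (by rw [lenA59]; exact rawsOK30000)
theorem lenA60 : qsA60.length = 30500 := by rw [qsA60, List.length_append, lenA59]; decide +kernel
def qsA61 : List (ℕ × ℕ × Bool × Bool) := qsA60 ++ qs30500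
theorem rawA61 : rawsOK raw canon qsA61 0 = true := rawsOK_append rawA60 (by rw [lenA60]; exact rawsOK30500)
theorem lenA61 : qsA61.length = 31000 := by rw [qsA61, List.length_append, lenA60]; decide +kernel
def qsA62 : List (ℕ × ℕ × Bool × Bool) := qsA61 ++ qs31000
theorem rawA62 : rawsOK raw canon qsA62 0 = true := rawsOK_append rawA61 (by rw [lenA61]; exact rawsOK31000)
theorem lenA62 : qsA62.length = 31500 := by rw [qsA62, List.length_append, lenA61]; decide +kernel
def qsA63 : List (ℕ × ℕ × Bool × Bool) := qsA62 ++ qs31500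
theorem rawA63 : rawsOK raw canon qsA63 0 = true := rawsOK_append rawA62 (by rw [lenA62]; exact rawsOK31500)
theorem lenA63 : qsA63.length = 32000 := by rw [qsA63, List.length_append, lenA62]; decide +kernel
def qsA64 : List (ℕ × ℕ × Bool × Bool) := qsA63 ++ qs32000
theorem rawA64 : rawsOK raw canon qsA64 0 = true := rawsOK_append rawA63 (by rw [lenA63]; exact rawsOK32000)
theorem lenA64 : qsA64.length = 32500 := by rw [qsA64, List.length_append, lenA63]; decide +kernel
def qsA65 : List (ℕ × ℕ × Bool × Bool) := qsA64 ++ qs32500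
theorem rawA65 : rawsOK raw canon qsA65 0 = true := rawsOK_append rawA64 (by rw [lenA64]; exact rawsOK32500)
theorem lenA65 : qsA65.length = 33000 := by rw [qsA65, List.length_append, lenA64]; decide +kernel
def qsA66 : List (ℕ × ℕ × Bool × Bool) := qsA65 ++ qs33000
theorem rawA66 : rawsOK raw canon qsA66 0 = true := rawsOK_append rawA65 (by rw [lenA65]; exact rawsOK33000)
theorem lenA66 : qsA66.length = 33500 := by rw [qsA66, List.length_append, lenA65]; decide +kernel
def qsA67 : List (ℕ × ℕ × Bool × Bool) := qsA66 ++ qs33500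
theorem rawA67 : rawsOK raw canon qsA67 0 = true := rawsOK_append rawA66 (by rw [lenA66]; exact rawsOK33500)
theorem lenA67 : qsA67.length = 34000 := by rw [qsA67, List.length_append, lenA66]; decide +kernel
def qsA68 : List (ℕ × ℕ × Bool × Bool) := qsA67 ++ qs34000
theorem rawA68 : rawsOK raw canon qsA68 0 = true := rawsOK_append rawA67 (by rw [lenA67]; exact rawsOK34000)
theorem lenA68 : qsA68.length = 34498 := by rw [qsA68, List.length_append, lenA67]; decide +kernel
theorem raws_ok : rawsOK raw canon qsA68 0 = true := rawA68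
theorem raws_len : qsA68.length = lk.nraw := lenA68
end Vale.Agent.P355.Data
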