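import Vale.Agent.P355.Cert.BlockG
import Vale.Agent.P355.Cert.Block2D
import Vale.Agent.P355.Cert.Main
import Vale.Agent.P355.Data.B0_0Data
import Vale.Agent.P355.Data.B0_0Pairs0
import Vale.Agent.P355.Data.B0_0Pairs1
import Vale.Agent.P355.Data.B0_0Pairs2
import Vale.Agent.P355.Data.B0_0Pairs3
import Vale.Agent.P355.Data.B0_0Pairs4
import Vale.Agent.P355.Data.B0_0Pairs5
import Vale.Agent.P355.Data.B0_0Pairs6
import Vale.Agent.P355.Data.B0_0Pairs7
import Vale.Agent.P355.Data.B0_0Pairs8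
import Vale.Agent.P355.Data.B0_0Pairs9
import Vale.Agent.P355.Data.B0_0Pairs10
import Vale.Agent.P355.Data.B0_0Pairs11
import Vale.Agent.P355.Data.B0_0Pairs12
import Vale.Agent.P355.Data.B0_0Pairs13
import Vale.Agent.P355.Data.B0_0Pairs14
import Vale.Agent.P355.Data.B0_0Pairs15
import Vale.Agent.P355.Data.B0_0Pairs16
import Vale.Agent.P355.Data.B0_0Pairs17
import Vale.Agent.P355.Data.B0_0Pairs18
import Vale.Agent.P355.Data.B0_0Pairs19
import Vale.Agent.P355.Data.B0_0Pairs20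
import Vale.Agent.P355.Data.B0_0Pairs21
import Vale.Agent.P355.Data.B0_0Pairs22
import Vale.Agent.P355.Data.B0_0Pairs23
import Vale.Agent.P355.Data.B0_0Pairs24
import Vale.Agent.P355.Data.B0_0Pairs25
import Vale.Agent.P355.Data.B0_0Pairs26
import Vale.Agent.P355.Data.B0_0Pairs27
import Vale.Agent.P355.Data.B0_0Pairs28
import Vale.Agent.P355.Data.B0_0Pairs29
import Vale.Agent.P355.Data.B0_0Pairs30
import Vale.Agent.P355.Data.B0_0Pairs31
import Vale.Agent.P355.Data.B0_0Pairs32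
import Vale.Agent.P355.Data.B0_0Pairs33
import Vale.Agent.P355.Data.B0_0Acc0
import Vale.Agent.P355.Data.B0_0Acc1
import Vale.Agent.P355.Data.B0_0Acc2
import Vale.Agent.P355.Data.B0_0Acc3
import Vale.Agent.P355.Data.B0_0Acc4
import Vale.Agent.P355.Data.B0_0Acc5
import Vale.Agent.P355.Data.B0_0Acc6
import Vale.Agent.P355.Data.B0_0Acc7
import Vale.Agent.P355.Data.B0_0Acc8
import Vale.Agent.P355.Data.B0_0Acc9
import Vale.Agent.P355.Data.B0_0Acc10
import Vale.Agent.P355.Data.B0_0Acc11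
import Vale.Agent.P355.Data.B0_0Acc12
import Vale.Agent.P355.Data.B0_0Acc13
import Vale.Agent.P355.Data.B0_0Acc14
import Vale.Agent.P355.Data.B0_0Acc15
import Vale.Agent.P355.Data.B0_0Acc16
import Vale.Agent.P355.Data.B0_1Data
import Vale.Agent.P355.Data.B0_1Pairs0
import Vale.Agent.P355.Data.B0_1Pairs1
import Vale.Agent.P355.Data.B0_1Pairs2
import Vale.Agent.P355.Data.B0_1Pairs3
import Vale.Agent.P355.Data.B0_1Pairs4
import Vale.Agent.P355.Data.B0_1Pairs5
import Vale.Agent.P355.Data.B0_1Pairs6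
import Vale.Agent.P355.Data.B0_1Pairs7
import Vale.Agent.P355.Data.B0_1Pairs8
import Vale.Agent.P355.Data.B0_1Pairs9
import Vale.Agent.P355.Data.B0_1Pairs10
import Vale.Agent.P355.Data.B0_1Pairs11
import Vale.Agent.P355.Data.B0_1Pairs12
import Vale.Agent.P355.Data.B0_1Pairs13
import Vale.Agent.P355.Data.B0_1Pairs14
import Vale.Agent.P355.Data.B0_1Pairs15
import Vale.Agent.P355.Data.B0_1Pairs16
import Vale.Agent.P355.Data.B0_1Pairs17
import Vale.Agent.P355.Data.B0_1Pairs18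
import Vale.Agent.P355.Data.B0_1Pairs19
import Vale.Agent.P355.Data.B0_1Pairs20
import Vale.Agent.P355.Data.B0_1Pairs21
import Vale.Agent.P355.Data.B0_1Pairs22
import Vale.Agent.P355.Data.B0_1Pairs23
import Vale.Agent.P355.Data.B0_1Pairs24
import Vale.Agent.P355.Data.B0_1Pairs25
import Vale.Agent.P355.Data.B0_1Pairs26
import Vale.Agent.P355.Data.B0_1Pairs27
import Vale.Agent.P355.Data.B0_1Pairs28
import Vale.Agent.P355.Data.B0_1Pairs29
import Vale.Agent.P355.Data.B0_1Pairs30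
import Vale.Agent.P355.Data.B0_1Pairs31
import Vale.Agent.P355.Data.B0_1Pairs32
import Vale.Agent.P355.Data.B0_1Pairs33
import Vale.Agent.P355.Data.B0_1Acc0
import Vale.Agent.P355.Data.B0_1Acc1
import Vale.Agent.P355.Data.B0_1Acc2
import Vale.Agent.P355.Data.B0_1Acc3
import Vale.Agent.P355.Data.B0_1Acc4
import Vale.Agent.P355.Data.B0_1Acc5
import Vale.Agent.P355.Data.B0_1Acc6
import Vale.Agent.P355.Data.B0_1Acc7
import Vale.Agent.P355.Data.B0_1Acc8
import Vale.Agent.P355.Data.B0_1Acc9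
import Vale.Agent.P355.Data.B0_1Acc10
import Vale.Agent.P355.Data.B0_1Acc11
import Vale.Agent.P355.Data.B0_1Acc12
import Vale.Agent.P355.Data.B0_1Acc13
import Vale.Agent.P355.Data.B0_1Acc14
import Vale.Agent.P355.Data.B0_1Acc15
import Vale.Agent.P355.Data.B0_1Acc16
import Vale.Agent.P355.Data.RawsAll

/-! P355 certificate data (generated by notes/P355/h55/genG.py). -/

namespace Vale.Agent.P355.Data
open Vale.Agent.P355.Cert Vale.Agent.P355.Cert.Packed Vale.Agent.P355.Cert.Block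
set_option linter.all false
set_option maxRecDepth 4000
def SP0_0_0 : ℕ := litP0_0_0
theorem sumP0_0_0 : chunkP par0_0 gL0_0 0 16 = SP0_0_0 := accP0_0_0
def SN0_0_0 : ℕ := litN0_0_0
theorem sumN0_0_0 : chunkN par0_0 gL0_0 0 16 = SN0_0_0 := accN0_0_0
def SP0_0_1 : ℕ := SP0_0_0 + litP0_0_1
theorem sumP0_0_1 : chunkP par0_0 gL0_0 0 32 = SP0_0_1 := by
  have := chunkP_add par0_0 gL0_0 0 16 16
  rw [Nat.zero_add, sumP0_0_0, accP0_0_1] at this
  exact this.trans (by rfl)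
def SN0_0_1 : ℕ := SN0_0_0 + litN0_0_1
theorem sumN0_0_1 : chunkN par0_0 gL0_0 0 32 = SN0_0_1 := by
  have := chunkN_add par0_0 gL0_0 0 16 16
  rw [Nat.zero_add, sumN0_0_0, accN0_0_1] at this
  exact this.trans (by rfl)
def SP0_0_2 : ℕ := SP0_0_1 + litP0_0_2
theorem sumP0_0_2 : chunkP par0_0 gL0_0 0 49 = SP0_0_2 := by
  have := chunkP_add par0_0 gL0_0 0 32 17
  rw [Nat.zero_add, sumP0_0_1, accP0_0_2] at this
  exact this.trans (by rfl)
def SN0_0_2 : ℕ := SN0_0_1 + litN0_0_2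
theorem sumN0_0_2 : chunkN par0_0 gL0_0 0 49 = SN0_0_2 := by
  have := chunkN_add par0_0 gL0_0 0 32 17
  rw [Nat.zero_add, sumN0_0_1, accN0_0_2] at this
  exact this.trans (by rfl)
def SP0_0_3 : ℕ := SP0_0_2 + litP0_0_3
theorem sumP0_0_3 : chunkP par0_0 gL0_0 0 66 = SP0_0_3 := by
  have := chunkP_add par0_0 gL0_0 0 49 17
  rw [Nat.zero_add, sumP0_0_2, accP0_0_3] at this
  exact this.trans (by rfl)
def SN0_0_3 : ℕ := SN0_0_2 + litN0_0_3
theorem sumN0_0_3 : chunkN par0_0 gL0_0 0 66 = SN0_0_3 := by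
  have := chunkN_add par0_0 gL0_0 0 49 17
  rw [Nat.zero_add, sumN0_0_2, accN0_0_3] at this
  exact this.trans (by rfl)
def SP0_0_4 : ℕ := SP0_0_3 + litP0_0_4
theorem sumP0_0_4 : chunkP par0_0 gL0_0 0 84 = SP0_0_4 := by
  have := chunkP_add par0_0 gL0_0 0 66 18
  rw [Nat.zero_add, sumP0_0_3, accP0_0_4] at this
  exact this.trans (by rfl)
def SN0_0_4 : ℕ := SN0_0_3 + litN0_0_4
theorem sumN0_0_4 : chunkN par0_0 gL0_0 0 84 = SN0_0_4 := by
  have := chunkN_add par0_0 gL0_0 0 66 18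
  rw [Nat.zero_add, sumN0_0_3, accN0_0_4] at this
  exact this.trans (by rfl)
def SP0_0_5 : ℕ := SP0_0_4 + litP0_0_5
theorem sumP0_0_5 : chunkP par0_0 gL0_0 0 103 = SP0_0_5 := by
  have := chunkP_add par0_0 gL0_0 0 84 19
  rw [Nat.zero_add, sumP0_0_4, accP0_0_5] at this
  exact this.trans (by rfl)
def SN0_0_5 : ℕ := SN0_0_4 + litN0_0_5
theorem sumN0_0_5 : chunkN par0_0 gL0_0 0 103 = SN0_0_5 := by
  have := chunkN_add par0_0 gL0_0 0 84 19
  rw [Nat.zero_add, sumN0_0_4, accN0_0_5] at this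
  exact this.trans (by rfl)
def SP0_0_6 : ℕ := SP0_0_5 + litP0_0_6
theorem sumP0_0_6 : chunkP par0_0 gL0_0 0 123 = SP0_0_6 := by
  have := chunkP_add par0_0 gL0_0 0 103 20
  rw [Nat.zero_add, sumP0_0_5, accP0_0_6] at this
  exact this.trans (by rfl)
def SN0_0_6 : ℕ := SN0_0_5 + litN0_0_6
theorem sumN0_0_6 : chunkN par0_0 gL0_0 0 123 = SN0_0_6 := by
  have := chunkN_add par0_0 gL0_0 0 103 20
  rw [Nat.zero_add, sumN0_0_5, accN0_0_6] at this
  exact this.trans (by rfl)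
def SP0_0_7 : ℕ := SP0_0_6 + litP0_0_7
theorem sumP0_0_7 : chunkP par0_0 gL0_0 0 144 = SP0_0_7 := by
  have := chunkP_add par0_0 gL0_0 0 123 21
  rw [Nat.zero_add, sumP0_0_6, accP0_0_7] at this
  exact this.trans (by rfl)
def SN0_0_7 : ℕ := SN0_0_6 + litN0_0_7
theorem sumN0_0_7 : chunkN par0_0 gL0_0 0 144 = SN0_0_7 := by
  have := chunkN_add par0_0 gL0_0 0 123 21
  rw [Nat.zero_add, sumN0_0_6, accN0_0_7] at this
  exact this.trans (by rfl)
def SP0_0_8 : ℕ := SP0_0_7 + litP0_0_8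
theorem sumP0_0_8 : chunkP par0_0 gL0_0 0 166 = SP0_0_8 := by
  have := chunkP_add par0_0 gL0_0 0 144 22
  rw [Nat.zero_add, sumP0_0_7, accP0_0_8] at this
  exact this.trans (by rfl)
def SN0_0_8 : ℕ := SN0_0_7 + litN0_0_8
theorem sumN0_0_8 : chunkN par0_0 gL0_0 0 166 = SN0_0_8 := by
  have := chunkN_add par0_0 gL0_0 0 144 22
  rw [Nat.zero_add, sumN0_0_7, accN0_0_8] at this
  exact this.trans (by rfl)
def SP0_0_9 : ℕ := SP0_0_8 + litP0_0_9
theorem sumP0_0_9 : chunkP par0_0 gL0_0 0 190 = SP0_0_9 := by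
  have := chunkP_add par0_0 gL0_0 0 166 24
  rw [Nat.zero_add, sumP0_0_8, accP0_0_9] at this
  exact this.trans (by rfl)
def SN0_0_9 : ℕ := SN0_0_8 + litN0_0_9
theorem sumN0_0_9 : chunkN par0_0 gL0_0 0 190 = SN0_0_9 := by
  have := chunkN_add par0_0 gL0_0 0 166 24
  rw [Nat.zero_add, sumN0_0_8, accN0_0_9] at this
  exact this.trans (by rfl)
def SP0_0_10 : ℕ := SP0_0_9 + litP0_0_10
theorem sumP0_0_10 : chunkP par0_0 gL0_0 0 216 = SP0_0_10 := by
  have := chunkP_add par0_0 gL0_0 0 190 26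
  rw [Nat.zero_add, sumP0_0_9, accP0_0_10] at this
  exact this.trans (by rfl)
def SN0_0_10 : ℕ := SN0_0_9 + litN0_0_10
theorem sumN0_0_10 : chunkN par0_0 gL0_0 0 216 = SN0_0_10 := by
  have := chunkN_add par0_0 gL0_0 0 190 26
  rw [Nat.zero_add, sumN0_0_9, accN0_0_10] at this
  exact this.trans (by rfl)
def SP0_0_11 : ℕ := SP0_0_10 + litP0_0_11
theorem sumP0_0_11 : chunkP par0_0 gL0_0 0 244 = SP0_0_11 := by
  have := chunkP_add par0_0 gL0_0 0 216 28
  rw [Nat.zero_add, sumP0_0_10, accP0_0_11] at this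
  exact this.trans (by rfl)
def SN0_0_11 : ℕ := SN0_0_10 + litN0_0_11
theorem sumN0_0_11 : chunkN par0_0 gL0_0 0 244 = SN0_0_11 := by
  have := chunkN_add par0_0 gL0_0 0 216 28
  rw [Nat.zero_add, sumN0_0_10, accN0_0_11] at this
  exact this.trans (by rfl)
def SP0_0_12 : ℕ := SP0_0_11 + litP0_0_12
theorem sumP0_0_12 : chunkP par0_0 gL0_0 0 276 = SP0_0_12 := by
  have := chunkP_add par0_0 gL0_0 0 244 32
  rw [Nat.zero_add, sumP0_0_11, accP0_0_12] at this
  exact this.trans (by rfl)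
def SN0_0_12 : ℕ := SN0_0_11 + litN0_0_12
theorem sumN0_0_12 : chunkN par0_0 gL0_0 0 276 = SN0_0_12 := by
  have := chunkN_add par0_0 gL0_0 0 244 32
  rw [Nat.zero_add, sumN0_0_11, accN0_0_12] at this
  exact this.trans (by rfl)
def SP0_0_13 : ℕ := SP0_0_12 + litP0_0_13
theorem sumP0_0_13 : chunkP par0_0 gL0_0 0 313 = SP0_0_13 := by
  have := chunkP_add par0_0 gL0_0 0 276 37
  rw [Nat.zero_add, sumP0_0_12, accP0_0_13] at this
  exact this.trans (by rfl)
def SN0_0_13 : ℕ := SN0_0_12 + litN0_0_13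
theorem sumN0_0_13 : chunkN par0_0 gL0_0 0 313 = SN0_0_13 := by
  have := chunkN_add par0_0 gL0_0 0 276 37
  rw [Nat.zero_add, sumN0_0_12, accN0_0_13] at this
  exact this.trans (by rfl)
def SP0_0_14 : ℕ := SP0_0_13 + litP0_0_14
theorem sumP0_0_14 : chunkP par0_0 gL0_0 0 360 = SP0_0_14 := by
  have := chunkP_add par0_0 gL0_0 0 313 47
  rw [Nat.zero_add, sumP0_0_13, accP0_0_14] at this
  exact this.trans (by rfl)
def SN0_0_14 : ℕ := SN0_0_13 + litN0_0_14
theorem sumN0_0_14 : chunkN par0_0 gL0_0 0 360 = SN0_0_14 := by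
  have := chunkN_add par0_0 gL0_0 0 313 47
  rw [Nat.zero_add, sumN0_0_13, accN0_0_14] at this
  exact this.trans (by rfl)
def SP0_0_15 : ℕ := SP0_0_14 + litP0_0_15
theorem sumP0_0_15 : chunkP par0_0 gL0_0 0 432 = SP0_0_15 := by
  have := chunkP_add par0_0 gL0_0 0 360 72
  rw [Nat.zero_add, sumP0_0_14, accP0_0_15] at this
  exact this.trans (by rfl)
def SN0_0_15 : ℕ := SN0_0_14 + litN0_0_15
theorem sumN0_0_15 : chunkN par0_0 gL0_0 0 432 = SN0_0_15 := by
  have := chunkN_add par0_0 gL0_0 0 360 72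
  rw [Nat.zero_add, sumN0_0_14, accN0_0_15] at this
  exact this.trans (by rfl)
def SP0_0_16 : ℕ := SP0_0_15 + litP0_0_16
theorem sumP0_0_16 : chunkP par0_0 gL0_0 0 506 = SP0_0_16 := by
  have := chunkP_add par0_0 gL0_0 0 432 74
  rw [Nat.zero_add, sumP0_0_15, accP0_0_16] at this
  exact this.trans (by rfl)
def SN0_0_16 : ℕ := SN0_0_15 + litN0_0_16
theorem sumN0_0_16 : chunkN par0_0 gL0_0 0 506 = SN0_0_16 := by
  have := chunkN_add par0_0 gL0_0 0 432 74
  rw [Nat.zero_add, sumN0_0_15, accN0_0_16] at this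
  exact this.trans (by rfl)
theorem lenF0_0 : fs0_0.length = 506 := by decide +kernel
theorem lenL0_0 : gL0_0.length = 506 := by decide +kernel
theorem good0_0 : Good par0_0 lk raw fs0_0 gL0_0 0 506 := ((((((((((((((((((((((((((((((((((chunk_good pairs0_0_0).join (chunk_good pairs0_0_1)).join (chunk_good pairs0_0_2)).join (chunk_good pairs0_0_3)).join (chunk_good pairs0_0_4)).join (chunk_good pairs0_0_5)).join (chunk_good pairs0_0_6)).join (chunk_good pairs0_0_7)).join (chunk_good pairs0_0_8)).join (chunk_good pairs0_0_9)).join (chunk_good pairs0_0_10)).join (chunk_good pairs0_0_11)).join (chunk_good pairs0_0_12)).join (chunk_good pairs0_0_13)).join (chunk_good pairs0_0_14)).join (chunk_good pairs0_0_15)).join (chunk_good pairs0_0_16)).join (chunk_good pairs0_0_17)).join (chunk_good pairs0_0_18)).join (chunk_good pairs0_0_19)).join (chunk_good pairs0_0_20)).join (chunk_good pairs0_0_21)).join (chunk_good pairs0_0_22)).join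 (chunk_good pairs0_0_23)).join (chunk_good pairs0_0_24)).join (chunk_good pairs0_0_25)).join (chunk_good pairs0_0_26)).join (chunk_good pairs0_0_27)).join (chunk_good pairs0_0_28)).join (chunk_good pairs0_0_29)).join (chunk_good pairs0_0_30)).join (chunk_good pairs0_0_31)).join (chunk_good pairs0_0_32)).join (chunk_good pairs0_0_33))
def SP0_1_0 : ℕ := litP0_1_0
theorem sumP0_1_0 : chunkP par0_1 gL0_1 0 16 = SP0_1_0 := accP0_1_0
def SN0_1_0 : ℕ := litN0_1_0
theorem sumN0_1_0 : chunkN par0_1 gL0_1 0 16 = SN0_1_0 := accN0_1_0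
def SP0_1_1 : ℕ := SP0_1_0 + litP0_1_1
theorem sumP0_1_1 : chunkP par0_1 gL0_1 0 32 = SP0_1_1 := by
  have := chunkP_add par0_1 gL0_1 0 16 16
  rw [Nat.zero_add, sumP0_1_0, accP0_1_1] at this
  exact this.trans (by rfl)
def SN0_1_1 : ℕ := SN0_1_0 + litN0_1_1
theorem sumN0_1_1 : chunkN par0_1 gL0_1 0 32 = SN0_1_1 := by
  have := chunkN_add par0_1 gL0_1 0 16 16
  rw [Nat.zero_add, sumN0_1_0, accN0_1_1] at this
  exact this.trans (by rfl)
def SP0_1_2 : ℕ := SP0_1_1 + litP0_1_2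
theorem sumP0_1_2 : chunkP par0_1 gL0_1 0 49 = SP0_1_2 := by
  have := chunkP_add par0_1 gL0_1 0 32 17
  rw [Nat.zero_add, sumP0_1_1, accP0_1_2] at this
  exact this.trans (by rfl)
def SN0_1_2 : ℕ := SN0_1_1 + litN0_1_2
theorem sumN0_1_2 : chunkN par0_1 gL0_1 0 49 = SN0_1_2 := by
  have := chunkN_add par0_1 gL0_1 0 32 17
  rw [Nat.zero_add, sumN0_1_1, accN0_1_2] at this
  exact this.trans (by rfl)
def SP0_1_3 : ℕ := SP0_1_2 + litP0_1_3
theorem sumP0_1_3 : chunkP par0_1 gL0_1 0 66 = SP0_1_3 := by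
  have := chunkP_add par0_1 gL0_1 0 49 17
  rw [Nat.zero_add, sumP0_1_2, accP0_1_3] at this
  exact this.trans (by rfl)
def SN0_1_3 : ℕ := SN0_1_2 + litN0_1_3
theorem sumN0_1_3 : chunkN par0_1 gL0_1 0 66 = SN0_1_3 := by
  have := chunkN_add par0_1 gL0_1 0 49 17
  rw [Nat.zero_add, sumN0_1_2, accN0_1_3] at this
  exact this.trans (by rfl)
def SP0_1_4 : ℕ := SP0_1_3 + litP0_1_4
theorem sumP0_1_4 : chunkP par0_1 gL0_1 0 84 = SP0_1_4 := by
  have := chunkP_add par0_1 gL0_1 0 66 18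
  rw [Nat.zero_add, sumP0_1_3, accP0_1_4] at this
  exact this.trans (by rfl)
def SN0_1_4 : ℕ := SN0_1_3 + litN0_1_4
theorem sumN0_1_4 : chunkN par0_1 gL0_1 0 84 = SN0_1_4 := by
  have := chunkN_add par0_1 gL0_1 0 66 18
  rw [Nat.zero_add, sumN0_1_3, accN0_1_4] at this
  exact this.trans (by rfl)
def SP0_1_5 : ℕ := SP0_1_4 + litP0_1_5
theorem sumP0_1_5 : chunkP par0_1 gL0_1 0 103 = SP0_1_5 := by
  have := chunkP_add par0_1 gL0_1 0 84 19
  rw [Nat.zero_add, sumP0_1_4, accP0_1_5] at this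
  exact this.trans (by rfl)
def SN0_1_5 : ℕ := SN0_1_4 + litN0_1_5
theorem sumN0_1_5 : chunkN par0_1 gL0_1 0 103 = SN0_1_5 := by
  have := chunkN_add par0_1 gL0_1 0 84 19
  rw [Nat.zero_add, sumN0_1_4, accN0_1_5] at this
  exact this.trans (by rfl)
def SP0_1_6 : ℕ := SP0_1_5 + litP0_1_6
theorem sumP0_1_6 : chunkP par0_1 gL0_1 0 123 = SP0_1_6 := by
  have := chunkP_add par0_1 gL0_1 0 103 20
  rw [Nat.zero_add, sumP0_1_5, accP0_1_6] at this
  exact this.trans (by rfl)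
def SN0_1_6 : ℕ := SN0_1_5 + litN0_1_6
theorem sumN0_1_6 : chunkN par0_1 gL0_1 0 123 = SN0_1_6 := by
  have := chunkN_add par0_1 gL0_1 0 103 20
  rw [Nat.zero_add, sumN0_1_5, accN0_1_6] at this
  exact this.trans (by rfl)
def SP0_1_7 : ℕ := SP0_1_6 + litP0_1_7
theorem sumP0_1_7 : chunkP par0_1 gL0_1 0 144 = SP0_1_7 := by
  have := chunkP_add par0_1 gL0_1 0 123 21
  rw [Nat.zero_add, sumP0_1_6, accP0_1_7] at this
  exact this.trans (by rfl)
def SN0_1_7 : ℕ := SN0_1_6 + litN0_1_7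
theorem sumN0_1_7 : chunkN par0_1 gL0_1 0 144 = SN0_1_7 := by
  have := chunkN_add par0_1 gL0_1 0 123 21
  rw [Nat.zero_add, sumN0_1_6, accN0_1_7] at this
  exact this.trans (by rfl)
def SP0_1_8 : ℕ := SP0_1_7 + litP0_1_8
theorem sumP0_1_8 : chunkP par0_1 gL0_1 0 166 = SP0_1_8 := by
  have := chunkP_add par0_1 gL0_1 0 144 22
  rw [Nat.zero_add, sumP0_1_7, accP0_1_8] at this
  exact this.trans (by rfl)
def SN0_1_8 : ℕ := SN0_1_7 + litN0_1_8
theorem sumN0_1_8 : chunkN par0_1 gL0_1 0 166 = SN0_1_8 := by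
  have := chunkN_add par0_1 gL0_1 0 144 22
  rw [Nat.zero_add, sumN0_1_7, accN0_1_8] at this
  exact this.trans (by rfl)
def SP0_1_9 : ℕ := SP0_1_8 + litP0_1_9
theorem sumP0_1_9 : chunkP par0_1 gL0_1 0 190 = SP0_1_9 := by
  have := chunkP_add par0_1 gL0_1 0 166 24
  rw [Nat.zero_add, sumP0_1_8, accP0_1_9] at this
  exact this.trans (by rfl)
def SN0_1_9 : ℕ := SN0_1_8 + litN0_1_9
theorem sumN0_1_9 : chunkN par0_1 gL0_1 0 190 = SN0_1_9 := by
  have := chunkN_add par0_1 gL0_1 0 166 24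
  rw [Nat.zero_add, sumN0_1_8, accN0_1_9] at this
  exact this.trans (by rfl)
def SP0_1_10 : ℕ := SP0_1_9 + litP0_1_10
theorem sumP0_1_10 : chunkP par0_1 gL0_1 0 216 = SP0_1_10 := by
  have := chunkP_add par0_1 gL0_1 0 190 26
  rw [Nat.zero_add, sumP0_1_9, accP0_1_10] at this
  exact this.trans (by rfl)
def SN0_1_10 : ℕ := SN0_1_9 + litN0_1_10
theorem sumN0_1_10 : chunkN par0_1 gL0_1 0 216 = SN0_1_10 := by
  have := chunkN_add par0_1 gL0_1 0 190 26
  rw [Nat.zero_add, sumN0_1_9, accN0_1_10] at this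
  exact this.trans (by rfl)
def SP0_1_11 : ℕ := SP0_1_10 + litP0_1_11
theorem sumP0_1_11 : chunkP par0_1 gL0_1 0 244 = SP0_1_11 := by
  have := chunkP_add par0_1 gL0_1 0 216 28
  rw [Nat.zero_add, sumP0_1_10, accP0_1_11] at this
  exact this.trans (by rfl)
def SN0_1_11 : ℕ := SN0_1_10 + litN0_1_11
theorem sumN0_1_11 : chunkN par0_1 gL0_1 0 244 = SN0_1_11 := by
  have := chunkN_add par0_1 gL0_1 0 216 28
  rw [Nat.zero_add, sumN0_1_10, accN0_1_11] at this
  exact this.trans (by rfl)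
def SP0_1_12 : ℕ := SP0_1_11 + litP0_1_12
theorem sumP0_1_12 : chunkP par0_1 gL0_1 0 276 = SP0_1_12 := by
  have := chunkP_add par0_1 gL0_1 0 244 32
  rw [Nat.zero_add, sumP0_1_11, accP0_1_12] at this
  exact this.trans (by rfl)
def SN0_1_12 : ℕ := SN0_1_11 + litN0_1_12
theorem sumN0_1_12 : chunkN par0_1 gL0_1 0 276 = SN0_1_12 := by
  have := chunkN_add par0_1 gL0_1 0 244 32
  rw [Nat.zero_add, sumN0_1_11, accN0_1_12] at this
  exact this.trans (by rfl)
def SP0_1_13 : ℕ := SP0_1_12 + litP0_1_13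
theorem sumP0_1_13 : chunkP par0_1 gL0_1 0 313 = SP0_1_13 := by
  have := chunkP_add par0_1 gL0_1 0 276 37
  rw [Nat.zero_add, sumP0_1_12, accP0_1_13] at this
  exact this.trans (by rfl)
def SN0_1_13 : ℕ := SN0_1_12 + litN0_1_13
theorem sumN0_1_13 : chunkN par0_1 gL0_1 0 313 = SN0_1_13 := by
  have := chunkN_add par0_1 gL0_1 0 276 37
  rw [Nat.zero_add, sumN0_1_12, accN0_1_13] at this
  exact this.trans (by rfl)
def SP0_1_14 : ℕ := SP0_1_13 + litP0_1_14
theorem sumP0_1_14 : chunkP par0_1 gL0_1 0 360 = SP0_1_14 := by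
  have := chunkP_add par0_1 gL0_1 0 313 47
  rw [Nat.zero_add, sumP0_1_13, accP0_1_14] at this
  exact this.trans (by rfl)
def SN0_1_14 : ℕ := SN0_1_13 + litN0_1_14
theorem sumN0_1_14 : chunkN par0_1 gL0_1 0 360 = SN0_1_14 := by
  have := chunkN_add par0_1 gL0_1 0 313 47
  rw [Nat.zero_add, sumN0_1_13, accN0_1_14] at this
  exact this.trans (by rfl)
def SP0_1_15 : ℕ := SP0_1_14 + litP0_1_15
theorem sumP0_1_15 : chunkP par0_1 gL0_1 0 432 = SP0_1_15 := by
  have := chunkP_add par0_1 gL0_1 0 360 72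
  rw [Nat.zero_add, sumP0_1_14, accP0_1_15] at this
  exact this.trans (by rfl)
def SN0_1_15 : ℕ := SN0_1_14 + litN0_1_15
theorem sumN0_1_15 : chunkN par0_1 gL0_1 0 432 = SN0_1_15 := by
  have := chunkN_add par0_1 gL0_1 0 360 72
  rw [Nat.zero_add, sumN0_1_14, accN0_1_15] at this
  exact this.trans (by rfl)
def SP0_1_16 : ℕ := SP0_1_15 + litP0_1_16
theorem sumP0_1_16 : chunkP par0_1 gL0_1 0 506 = SP0_1_16 := by
  have := chunkP_add par0_1 gL0_1 0 432 74
  rw [Nat.zero_add, sumP0_1_15, accP0_1_16] at this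
  exact this.trans (by rfl)
def SN0_1_16 : ℕ := SN0_1_15 + litN0_1_16
theorem sumN0_1_16 : chunkN par0_1 gL0_1 0 506 = SN0_1_16 := by
  have := chunkN_add par0_1 gL0_1 0 432 74
  rw [Nat.zero_add, sumN0_1_15, accN0_1_16] at this
  exact this.trans (by rfl)
theorem lenF0_1 : fs0_1.length = 506 := by decide +kernel
theorem lenL0_1 : gL0_1.length = 506 := by decide +kernel
theorem good0_1 : Good par0_1 lk raw fs0_1 gL0_1 0 506 := ((((((((((((((((((((((((((((((((((chunk_good pairs0_1_0).join (chunk_good pairs0_1_1)).join (chunk_good pairs0_1_2)).join (chunk_good pairs0_1_3)).join (chunk_good pairs0_1_4)).join (chunk_good pairs0_1_5)).join (chunk_good pairs0_1_6)).join (chunk_good pairs0_1_7)).join (chunk_good pairs0_1_8)).join (chunk_good pairs0_1_9)).join (chunk_good pairs0_1_10)).join (chunk_good pairs0_1_11)).join (chunk_good pairs0_1_12)).join (chunk_good pairs0_1_13)).join (chunk_good pairs0_1_14)).join (chunk_good pairs0_1_15)).join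 (chunk_good pairs0_1_16)).join (chunk_good pairs0_1_17)).join (chunk_good pairs0_1_18)).join (chunk_good pairs0_1_19)).join (chunk_good pairs0_1_20)).join (chunk_good pairs0_1_21)).join (chunk_good pairs0_1_22)).join (chunk_good pairs0_1_23)).join (chunk_good pairs0_1_24)).join (chunk_good pairs0_1_25)).join (chunk_good pairs0_1_26)).join (chunk_good pairs0_1_27)).join (chunk_good pairs0_1_28)).join (chunk_good pairs0_1_29)).join (chunk_good pairs0_1_30)).join (chunk_good pairs0_1_31)).join (chunk_good pairs0_1_32)).join (chunk_good pairs0_1_33))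
def fsV0 : Fin 2 → List FlagData := ![fs0_0, fs0_1]
def gV0 : Fin 2 → List (ℕ × ℕ) := ![gL0_0, gL0_1]
def PV0 : Fin 2 → ℕ := ![SP0_0_16, SP0_1_16]
def NV0 : Fin 2 → ℕ := ![SN0_0_16, SN0_1_16]
def SP0 : ℕ := 6 * PV0 0 + NV0 1
def SN0 : ℕ := 6 * NV0 0 + PV0 1
/-- block 0 as a part with multiplier `m` -/
theorem block0 {h : Fin 6 → Fin 6 → ℂ} (hh : Vale.Agent.P355.InM h) (m : ℕ) :
    (Main.Part.mk m SP0 SN0).Nonneg 137 1024 (tableVal h canon 8) :=
  Block2D.block2D_lin hh par0_0 lk raw canon 506 fsV0 gV0 qsA68 (by decide +kernel) (by decide +kernel)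
    (by decide +kernel) (by decide +kernel) par_ok0_0
    (fun k => by
      fin_cases k
      · exact prep0_0
      · exact prep0_1)
    raws_len raws_ok
    (fun k => by
      fin_cases k
      · exact good0_0
      · exact good0_1)
    (fun k => by
      fin_cases k
      · exact sumP0_0_16
      · exact sumP0_1_16)
    (fun k => by
      fin_cases k
      · exact sumN0_0_16
      · exact sumN0_1_16)
end Vale.Agent.P355.Data
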