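import Vale.Agent.P355.Cert.BlockG
import Vale.Agent.P355.Cert.Block2D
import Vale.Agent.P355.Cert.Main
import Vale.Agent.P355.Data.B0

/-! P355 certificate data (generated by notes/P355/h55/genG.py). -/

namespace Vale.Agent.P355.Data
open Vale.Agent.P355.Cert Vale.Agent.P355.Cert.Packed Vale.Agent.P355.Cert.Block
set_option linter.all false
set_option maxRecDepth 4000
def blockParts : List Main.Part := [⟨65536, SP0, SN0⟩]
theorem blockParts_nonneg {h : Fin 6 → Fin 6 → ℂ} (hh : Vale.Agent.P355.InM h) :
    ∀ p ∈ blockParts, p.Nonneg 137 1024 (tableVal h canon 8) := by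
  simp only [blockParts, List.forall_mem_cons]
  exact ⟨block0 hh _, List.forall_mem_nil _⟩
end Vale.Agent.P355.Data
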